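import Vale.Agent.P181.RG.Defs

set_option autoImplicit false

/-!
# P181, RG: [BIG], the complement of `C D_2 ≤ a b`

If the theorem for fat shapes does not apply, fewer than `X` rows (`X` a power of the logarithm)
have length at least `b` and the rows below them carry at most `X b` boxes. So row three is at least
`a b / (2 K X)`, and some gap `λ_m - λ_(m+1)`, `3 ≤ m ≤ X` (1-based), is at least
`a ^ 2 / (4 K X ^ 2)`.
-/

open Finset Filter

namespace Vale.Agent.P181.RG.H235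

open Vale.Agent.P181.H280 (plethMult)
open Vale.Agent.P181.T4 (ex ex_of_lt ex_anti)

/-- `FD.FatLog`, word for word. -/
def FatS : Prop := ∃ (C : ℝ) (c : ℕ), 0 < C ∧ ∀ (a b n : ℕ) (lam : Fin n → ℕ), a ≤ b →
  C * (1 + Real.log a) ^ c * (b : ℝ) ^ 2 ≤ ((b : ℝ) - a) * ∑ i, ((min b (lam i) : ℕ) : ℝ) →
  plethMult a b n lam ≤ plethMult b a n lam

/-- The polylog theorem (`PLX.poly_result`). -/
def PolyH : Prop := ∃ (C : ℝ) (c : ℕ), ∀ a b : ℕ, C * a * (1 + Real.log a) ^ c ≤ b →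
  ∀ (n : ℕ) (lam : Fin n → ℕ), plethMult a b n lam ≤ plethMult b a n lam

theorem ev_log (M : ℝ) (p : ℕ) : ∃ a₀ : ℕ, ∀ a : ℕ, a₀ ≤ a → M * (1 + Real.log a) ^ p ≤ a := by
  have h1 : ∀ᶠ x : ℝ in atTop, ‖Real.log x ^ p‖ ≤ 1 / ((|M| + 1) * 2 ^ p) * ‖id x‖ :=
    (Real.isLittleO_pow_log_id_atTop (n := p)).bound (by positivity)
  have h2 : ∀ᶠ x : ℝ in atTop, 1 ≤ Real.log x := Real.tendsto_log_atTop.eventually_ge_atTop 1
  have h3 : ∀ᶠ x : ℝ in atTop, M * (1 + Real.log x) ^ p ≤ x := by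
    filter_upwards [h1, h2, eventually_ge_atTop (0 : ℝ)] with x hx1 hx2 hx0
    rw [Real.norm_of_nonneg (by positivity), id, Real.norm_of_nonneg hx0] at hx1
    have h5 : (1 + Real.log x) ^ p ≤ (2 * Real.log x) ^ p :=
      pow_le_pow_left₀ (by linarith) (by linarith) _
    have h6 : (0 : ℝ) < (|M| + 1) * 2 ^ p := by positivity
    calc M * (1 + Real.log x) ^ p ≤ (|M| + 1) * (1 + Real.log x) ^ p :=
          mul_le_mul_of_nonneg_right (by linarith [le_abs_self M]) (by positivity)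
      _ ≤ (|M| + 1) * (2 * Real.log x) ^ p := mul_le_mul_of_nonneg_left h5 (by positivity)
      _ = ((|M| + 1) * 2 ^ p) * Real.log x ^ p := by rw [mul_pow]; ring
      _ ≤ ((|M| + 1) * 2 ^ p) * (1 / ((|M| + 1) * 2 ^ p) * x) :=
          mul_le_mul_of_nonneg_left hx1 h6.le
      _ = x := by rw [← mul_assoc, mul_one_div_cancel h6.ne', one_mul]
  have h4 := tendsto_natCast_atTop_atTop.eventually h3
  obtain ⟨a₀, ha₀⟩ := eventually_atTop.1 h4
  exact ⟨a₀, ha₀⟩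

theorem one_le_L (a : ℕ) : 1 ≤ 1 + Real.log a := by
  have : 0 ≤ Real.log a := Real.log_natCast_nonneg a
  linarith

lemma sum_ex {n : ℕ} (lam : Fin n → ℕ) (f : ℕ → ℕ → ℝ) :
    ∑ i : Fin n, f i (lam i) = ∑ i ∈ range n, f i (ex lam i) := by
  rw [← Fin.sum_univ_eq_sum_range (fun i => f i (ex lam i)) n]
  refine Finset.sum_congr rfl fun i _ => ?_
  rw [ex_of_lt lam i.2]

lemma ex_big {n : ℕ} (lam : Fin n → ℕ) {i : ℕ} (h : n ≤ i) : ex lam i = 0 := by
  rw [ex, dif_neg (by omega)]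

/-- The row number `⌊X⌋` is short. -/
lemma row_short {b n : ℕ} {lam : Fin n → ℕ} {X : ℝ} (hanti : Antitone lam) (hb : 0 < b)
    (h1 : ∑ i, ((min b (lam i) : ℕ) : ℝ) < X * b) : ex lam ⌊X⌋₊ < b := by
  obtain ⟨N, hN⟩ : ∃ N : ℕ, N = ⌊X⌋₊ := ⟨_, rfl⟩
  have hN2 : X < (N : ℝ) + 1 := by
    rw [hN]
    exact Nat.lt_floor_add_one X
  rw [← hN]
  have hbR : (0 : ℝ) < b := by exact_mod_cast hb
  have hS : ∑ i, ((min b (lam i) : ℕ) : ℝ) = ∑ i ∈ range n, ((min b (ex lam i) : ℕ) : ℝ) :=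
    sum_ex lam (fun _ x => ((min b x : ℕ) : ℝ))
  by_contra hc
  push Not at hc
  have hNn : N < n := by
    by_contra hcc
    rw [ex_big lam (by omega)] at hc
    omega
  have e4 : ∑ i ∈ range (N + 1), (b : ℝ) ≤ ∑ i ∈ range n, ((min b (ex lam i) : ℕ) : ℝ) := by
    calc ∑ i ∈ range (N + 1), (b : ℝ) = ∑ i ∈ range (N + 1), ((min b (ex lam i) : ℕ) : ℝ) := by
          refine Finset.sum_congr rfl fun i hi => ?_
          have e5 : ex lam N ≤ ex lam i := ex_anti hanti (by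
            have := Finset.mem_range.1 hi
            omega)
          rw [min_eq_left (hc.trans e5)]
      _ ≤ _ := by
          refine Finset.sum_le_sum_of_subset_of_nonneg ?_ fun i _ _ => Nat.cast_nonneg _
          exact Finset.range_subset_range.2 (by omega)
  rw [Finset.sum_const, Finset.card_range, nsmul_eq_mul, ← hS, Nat.cast_add, Nat.cast_one] at e4
  have e5 : X * (b : ℝ) < ((N : ℝ) + 1) * b := mul_lt_mul_of_pos_right hN2 hbR
  linarith

/-- The boxes below row two. -/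
lemma d2_le {b n : ℕ} {lam : Fin (n + 2) → ℕ} {X : ℝ} (hanti : Antitone lam) (hb : 0 < b)
    (hX : 0 ≤ X) (h1 : ∑ i, ((min b (lam i) : ℕ) : ℝ) < X * b) :
    ∑ i : Fin n, (lam i.succ.succ : ℝ) ≤ X * ex lam 2 + X * b := by
  have hrow := row_short hanti hb h1
  obtain ⟨N, hN⟩ : ∃ N : ℕ, N = ⌊X⌋₊ := ⟨_, rfl⟩
  have hN1 : (N : ℝ) ≤ X := by
    rw [hN]
    exact Nat.floor_le hX
  rw [← hN] at hrow
  have e0 : ∑ i : Fin n, (lam i.succ.succ : ℝ) = ∑ i ∈ range n, (ex lam (i + 2) : ℝ) := by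
    rw [← Fin.sum_univ_eq_sum_range (fun i => (ex lam (i + 2) : ℝ)) n]
    refine Finset.sum_congr rfl fun i _ => ?_
    rw [ex_of_lt lam (by omega : (i : ℕ) + 2 < n + 2)]
    rfl
  have hS : ∑ i, ((min b (lam i) : ℕ) : ℝ) =
      ∑ i ∈ range (n + 2), ((min b (ex lam i) : ℕ) : ℝ) :=
    sum_ex lam (fun _ x => ((min b x : ℕ) : ℝ))
  have e1 : ∑ i ∈ range n, ((min b (ex lam (i + 2)) : ℕ) : ℝ) ≤
      ∑ i ∈ range (n + 2), ((min b (ex lam i) : ℕ) : ℝ) := by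
    rw [Finset.sum_range_succ', Finset.sum_range_succ']
    have h2 : (0 : ℝ) ≤ ((min b (ex lam (0 + 1)) : ℕ) : ℝ) := Nat.cast_nonneg _
    have h3 : (0 : ℝ) ≤ ((min b (ex lam 0) : ℕ) : ℝ) := Nat.cast_nonneg _
    have h4 : ∑ i ∈ range n, ((min b (ex lam (i + 2)) : ℕ) : ℝ) =
      ∑ i ∈ range n, ((min b (ex lam (i + 1 + 1)) : ℕ) : ℝ) := rfl
    linarith
  have e2 : ∀ i ∈ range n, (ex lam (i + 2) : ℝ) ≤
      (if i < N then (ex lam 2 : ℝ) else 0) + ((min b (ex lam (i + 2)) : ℕ) : ℝ) := by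
    intro i _
    by_cases hi : i < N
    · rw [if_pos hi]
      have h2 : (ex lam (i + 2) : ℝ) ≤ ex lam 2 := by
        exact_mod_cast ex_anti hanti (by omega)
      have h3 : (0 : ℝ) ≤ ((min b (ex lam (i + 2)) : ℕ) : ℝ) := Nat.cast_nonneg _
      linarith
    · rw [if_neg hi, zero_add]
      have h2 : ex lam (i + 2) ≤ ex lam N := ex_anti hanti (by omega)
      rw [min_eq_right (by omega)]
  have e3 : ∑ i ∈ range n, (if i < N then (ex lam 2 : ℝ) else 0) ≤ N * ex lam 2 := by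
    rw [← Finset.sum_filter, Finset.sum_const, nsmul_eq_mul]
    have h2 : ((range n).filter (fun i => i < N)).card ≤ N := by
      calc ((range n).filter (fun i => i < N)).card ≤ (range N).card :=
            Finset.card_le_card (fun i hi => Finset.mem_range.2 (Finset.mem_filter.1 hi).2)
        _ = N := Finset.card_range N
    have h3 : (((range n).filter (fun i => i < N)).card : ℝ) ≤ N := by exact_mod_cast h2
    exact mul_le_mul_of_nonneg_right h3 (Nat.cast_nonneg _)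
  have e5 : (N : ℝ) * ex lam 2 ≤ X * ex lam 2 :=
    mul_le_mul_of_nonneg_right hN1 (Nat.cast_nonneg _)
  calc ∑ i : Fin n, (lam i.succ.succ : ℝ) = ∑ i ∈ range n, (ex lam (i + 2) : ℝ) := e0
    _ ≤ ∑ i ∈ range n, ((if i < N then (ex lam 2 : ℝ) else 0) +
        ((min b (ex lam (i + 2)) : ℕ) : ℝ)) := Finset.sum_le_sum e2
    _ = ∑ i ∈ range n, (if i < N then (ex lam 2 : ℝ) else 0) +
        ∑ i ∈ range n, ((min b (ex lam (i + 2)) : ℕ) : ℝ) := Finset.sum_add_distrib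
    _ ≤ X * ex lam 2 + X * b := by linarith

/-- The gap. -/
lemma gap {a b n : ℕ} {lam : Fin (n + 2) → ℕ} {K X : ℝ} (hanti : Antitone lam) (hK : 0 < K)
    (hX : 3 ≤ X) (ha : 0 < a) (hab : a ≤ b)
    (h1 : ∑ i, ((min b (lam i) : ℕ) : ℝ) < X * b)
    (h2 : (a : ℝ) * b ≤ K * ∑ i : Fin n, (lam i.succ.succ : ℝ)) (h4 : 8 * K * X ≤ a) :
    ∃ m : ℕ, 3 ≤ m ∧ m ≤ n + 2 ∧
      (a : ℝ) ^ 2 ≤ 8 * K * X ^ 2 * ((ex lam (m - 1) : ℝ) - ex lam m) := by
  have hb : 0 < b := by omega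
  have haR : (0 : ℝ) < a := by exact_mod_cast ha
  have hbR : (0 : ℝ) < b := by exact_mod_cast hb
  have habR : (a : ℝ) ≤ b := by exact_mod_cast hab
  have hX0 : 0 < X := by linarith
  have hd2 := d2_le hanti hb hX0.le h1
  have hrow := row_short hanti hb h1
  obtain ⟨N, hN⟩ : ∃ N : ℕ, N = ⌊X⌋₊ := ⟨_, rfl⟩
  have hN1 : (N : ℝ) ≤ X := by
    rw [hN]
    exact Nat.floor_le hX0.le
  have hN3 : 3 ≤ N := by
    rw [hN]
    exact Nat.le_floor (by exact_mod_cast hX)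
  rw [← hN] at hrow
  have hrowR : (ex lam N : ℝ) < b := by exact_mod_cast hrow
  -- row three is long
  have e1 : (a : ℝ) * b ≤ 2 * (K * X * ex lam 2) := by
    have h5 : (a : ℝ) * b ≤ K * (X * ex lam 2 + X * b) :=
      h2.trans (mul_le_mul_of_nonneg_left hd2 hK.le)
    have h6 : 8 * K * X * b ≤ a * b := mul_le_mul_of_nonneg_right h4 hbR.le
    have h7 : 0 ≤ K * X * b := by positivity
    nlinarith
  by_contra hcon
  push Not at hcon
  have hg : ∀ i, 2 ≤ i → 8 * K * X ^ 2 * ((ex lam i : ℝ) - ex lam (i + 1)) < (a : ℝ) ^ 2 := by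
    intro i hi
    by_cases hin : i + 1 ≤ n + 2
    · have := hcon (i + 1) (by omega) hin
      rwa [Nat.add_sub_cancel] at this
    · rw [ex_big lam (by omega), ex_big lam (by omega)]
      simp only [Nat.cast_zero, sub_zero, mul_zero]
      positivity
  have htel : ∀ M : ℕ,
      8 * K * X ^ 2 * ((ex lam 2 : ℝ) - ex lam (M + 2)) ≤ M * (a : ℝ) ^ 2 := by
    intro M
    induction M with
    | zero => simp
    | succ M ih =>
      have e2 := hg (M + 2) (by omega)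
      have e3 : M + 1 + 2 = M + 2 + 1 := by omega
      rw [e3]
      push_cast
      nlinarith [ih, e2]
  have e4 := htel (N - 2)
  have e5 : N - 2 + 2 = N := by omega
  rw [e5] at e4
  have e6 : ((N - 2 : ℕ) : ℝ) ≤ X := le_trans (by exact_mod_cast Nat.sub_le N 2) hN1
  have e7 : ((N - 2 : ℕ) : ℝ) * (a : ℝ) ^ 2 ≤ X * (a : ℝ) ^ 2 :=
    mul_le_mul_of_nonneg_right e6 (by positivity)
  -- 8 K X² ex 2 ≤ 8 K X² b + X a²,   4 X a b ≤ 8 K X² ex 2
  have e8 : 8 * K * X ^ 2 * (ex lam N : ℝ) ≤ 8 * K * X ^ 2 * b := by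
    have : 0 ≤ 8 * K * X ^ 2 := by positivity
    exact mul_le_mul_of_nonneg_left hrowR.le this
  have e9 : 4 * X * ((a : ℝ) * b) ≤ 4 * X * (2 * (K * X * ex lam 2)) :=
    mul_le_mul_of_nonneg_left e1 (by positivity)
  have e10 : 8 * K * X ^ 2 * b ≤ X * (a * b) := by
    have h5 : X * (8 * K * X) * b ≤ X * a * b := by gcongr
    calc 8 * K * X ^ 2 * b = X * (8 * K * X) * b := by ring
      _ ≤ X * a * b := h5
      _ = X * (a * b) := by ring
  have e11 : X * (a : ℝ) ^ 2 ≤ X * (a * b) := by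
    have : (a : ℝ) ^ 2 ≤ a * b := by rw [pow_two]; gcongr
    gcongr
  have e12 : 0 < X * ((a : ℝ) * b) := by positivity
  nlinarith

/-- **[BIG]** -/
theorem big_of (hF : FinRG) (hFat : FatS) (hP : PolyH) : BigRG := by
  intro K hK
  obtain ⟨C1, c1, hC1, hFat⟩ := hFat
  obtain ⟨C2, c2, hP⟩ := hP
  obtain ⟨A, hA⟩ : ∃ A, A = 3 + 2 * C1 := ⟨_, rfl⟩
  have hA3 : 3 ≤ A := by rw [hA]; linarith
  obtain ⟨C₀, hC₀⟩ : ∃ C₀, C₀ = 8 * K * A ^ 2 := ⟨_, rfl⟩
  have hC₀' : 0 < C₀ := by rw [hC₀]; positivity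
  obtain ⟨C3, hC3, hF⟩ := hF C₀ ((c1 * 2 : ℕ) : ℝ) hC₀' (Nat.cast_nonneg _)
  obtain ⟨a₀, ha₀⟩ := ev_log (8 * K * A) c1
  obtain ⟨C4, hC4⟩ : ∃ C4, C4 = |C2| * (1 + Real.log a₀) ^ c2 := ⟨_, rfl⟩
  have hC40 : 0 ≤ C4 := by
    rw [hC4]
    have := one_le_L a₀
    positivity
  refine ⟨2 + C3 + C4, by positivity, ?_⟩
  intro a b n lam hanti hsum hab hbig
  rcases Nat.eq_zero_or_pos a with ha | ha
  · subst ha
    refine hP 0 b ?_ _ _
    simp
  have haR : (1 : ℝ) ≤ a := by exact_mod_cast ha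
  have h2a : 2 * (a : ℝ) ≤ b := by
    refine le_trans ?_ hab
    gcongr
    linarith
  have h3a : C3 * (a : ℝ) ≤ b := by
    refine le_trans ?_ hab
    gcongr
    linarith
  have h4a : C4 * (a : ℝ) ≤ b := by
    refine le_trans ?_ hab
    gcongr
    linarith
  by_cases hsmall : a < a₀
  · refine hP a b ?_ _ _
    refine le_trans ?_ h4a
    have hL := one_le_L a
    have hLL : 1 + Real.log a ≤ 1 + Real.log a₀ := by
      have : Real.log a ≤ Real.log a₀ :=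
        Real.log_le_log (by linarith) (by exact_mod_cast hsmall.le)
      linarith
    have h5 : (1 + Real.log a) ^ c2 ≤ (1 + Real.log a₀) ^ c2 :=
      pow_le_pow_left₀ (by linarith) hLL _
    calc C2 * a * (1 + Real.log a) ^ c2 ≤ |C2| * a * (1 + Real.log a) ^ c2 := by
          have : C2 ≤ |C2| := le_abs_self _
          have h6 : 0 ≤ (1 + Real.log a) ^ c2 := pow_nonneg (by linarith) _
          gcongr
      _ ≤ |C2| * a * (1 + Real.log a₀) ^ c2 := by gcongr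
      _ = C4 * a := by rw [hC4]; ring
  push Not at hsmall
  have hL := one_le_L a
  have hlarge := ha₀ a hsmall
  obtain ⟨L, hLe⟩ : ∃ L, L = 1 + Real.log a := ⟨_, rfl⟩
  rw [← hLe] at hL hlarge
  have hLc : 1 ≤ L ^ c1 := one_le_pow₀ hL
  obtain ⟨X, hX⟩ : ∃ X, X = A * L ^ c1 := ⟨_, rfl⟩
  have hX3 : 3 ≤ X := by
    rw [hX]
    calc (3 : ℝ) = 3 * 1 := by ring
      _ ≤ A * L ^ c1 := by gcongr
  have habN : a ≤ b := by
    have : (a : ℝ) ≤ b := by linarith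
    exact_mod_cast this
  have hbR : (0 : ℝ) < b := by linarith
  by_cases hfat : C1 * L ^ c1 * (b : ℝ) ^ 2 ≤
      ((b : ℝ) - a) * ∑ i, ((min b (lam i) : ℕ) : ℝ)
  · rw [hLe] at hfat
    exact hFat a b _ lam habN hfat
  push Not at hfat
  have h1 : ∑ i, ((min b (lam i) : ℕ) : ℝ) < X * b := by
    obtain ⟨S, hS⟩ : ∃ S : ℝ, S = ∑ i, ((min b (lam i) : ℕ) : ℝ) := ⟨_, rfl⟩
    rw [← hS] at hfat ⊢
    have hS0 : 0 ≤ S := by
      rw [hS]
      exact Finset.sum_nonneg fun i _ => Nat.cast_nonneg _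
    have h5 : (b : ℝ) / 2 * S ≤ ((b : ℝ) - a) * S :=
      mul_le_mul_of_nonneg_right (by linarith) hS0
    have h6 : (b : ℝ) * S < b * (2 * C1 * L ^ c1 * b) := by nlinarith
    have h7 := lt_of_mul_lt_mul_left h6 hbR.le
    refine h7.trans_le ?_
    rw [hX]
    have h8 : 2 * C1 ≤ A := by rw [hA]; linarith
    gcongr
  obtain ⟨m, hm3, hmn, hgap⟩ := gap hanti hK hX3 ha habN h1 hbig (by
    rw [hX]
    calc 8 * K * (A * L ^ c1) = 8 * K * A * L ^ c1 := by ring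
      _ ≤ a := hlarge)
  have hPX : 8 * K * X ^ 2 = C₀ * (1 + Real.log a) ^ (((c1 * 2 : ℕ) : ℝ)) := by
    rw [Real.rpow_natCast, ← hLe, hX, hC₀, pow_mul]
    ring
  have hPX0 : 0 < 8 * K * X ^ 2 := by positivity
  refine hF a b m (n + 2) lam hanti hsum h3a hm3 hmn ?_
  intro i hi
  rw [← hPX]
  have hi1 : (ex lam (m - 1) : ℝ) ≤ lam i := by
    have h5 : ex lam (m - 1) ≤ ex lam i := ex_anti hanti (by omega)
    rw [ex_of_lt lam i.2] at h5
    exact_mod_cast h5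
  constructor
  · refine hgap.trans (mul_le_mul_of_nonneg_left ?_ hPX0.le)
    have : (0 : ℝ) ≤ ex lam m := Nat.cast_nonneg _
    linarith
  · intro j hj
    refine hgap.trans (mul_le_mul_of_nonneg_left ?_ hPX0.le)
    have h5 : ex lam j ≤ ex lam m := ex_anti hanti hj
    rw [ex_of_lt lam j.2] at h5
    have h6 : (lam j : ℝ) ≤ ex lam m := by exact_mod_cast h5
    linarith

end Vale.Agent.P181.RG.H235
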